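import Vale.Agent.P252.Calculus
import Vale.Agent.P252.Exists

/-!
# Failure of the affine Bernstein theorem in dimensions `n ≥ 10`
-/

namespace Vale.Agent.Results.P252.AffineBernsteinFails

open Vale.Agent.P252

/-- In every dimension `n ≥ 10` there is a smooth entire nonquadratic solution of the affine
maximal equation with positive definite Hessian. -/
theorem result : ∀ n : ℕ, 10 ≤ n →
    ∃ u : (Fin n → ℝ) → ℝ, ContDiff ℝ ((⊤ : ℕ∞) : WithTop ℕ∞) u ∧
      (∀ x, (hessian u x).PosDef) ∧ (∀ x, IsAffineMaximalAt u x) ∧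
      ¬ ∃ (A : Matrix (Fin n) (Fin n) ℝ) (b : Fin n → ℝ) (c : ℝ),
        ∀ x, u x = dotProduct x (Matrix.mulVec A x) + dotProduct b x + c := fun n hn =>
  (exists_profile n hn).elim fun P => exists_entire_affineMaximal (by omega) P

end Vale.Agent.Results.P252.AffineBernsteinFails
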